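import Vale.Agent.P355.H693U.End
import Vale.Agent.P355.H387U.Row

/-! The class function of frames as a class function on exponent arrays indexed by numbers
(marks `0,1,2,3`, vertices `4,…,9`). -/

namespace Vale.Agent.P355.H693U

open Finset Vale.Agent.P355 Vale.Agent.P355.H129T
open Vale.Agent.P355.H387U (NM Cls Law wgt vgt okR isz addG gx gx_mark gx_vert s01 s23 sx)

set_option linter.unusedSectionVars false

variable {y : V → V → ℂ}

/-- number of an index. -/
def ix : V → ℕ
  | .inl i => i.val
  | .inr a => 4 + a.val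

/-- index of a number. -/
def vx (i : ℕ) (h : i < 10) : V :=
  if h4 : i < 4 then .inl ⟨i, h4⟩ else .inr ⟨i - 4, by omega⟩

theorem ix_lt (p : V) : ix p < 10 := by
  rcases p with i | a
  · have := i.isLt; show i.val < 10; omega
  · have := a.isLt; show 4 + a.val < 10; omega

theorem ix_vx (i : ℕ) (h : i < 10) : ix (vx i h) = i := by
  unfold vx
  by_cases h4 : i < 4
  · rw [dif_pos h4]; rfl
  · rw [dif_neg h4]
    show 4 + (i - 4) = i
    omega

theorem ix_inj {p q : V} (h : ix p = ix q) : p = q := by
  rcases p with i | a <;> rcases q with j | b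
  · have : i.val = j.val := h
    rw [Fin.ext this]
  · have : i.val = 4 + b.val := h
    have := i.isLt; omega
  · have : 4 + a.val = j.val := h
    have := j.isLt; omega
  · have h0 : 4 + a.val = 4 + b.val := h
    have h1 : a = b := Fin.ext (by omega)
    rw [h1]

/-- restriction of an array. -/
def toM (G : NM) : Mx := fun p q => G (ix p) (ix q)

/-- the class function in numbers. -/
noncomputable def Fn (y : V → V → ℂ) (b : Bool) (G : NM) : ℝ := Fv y b (toM G)

theorem ix_ev (σ : Pm) (p : V) : ix (ev σ p) = gx σ (ix p) := by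
  rcases p with i | a
  · show i.val = gx σ i.val
    rw [gx_mark σ _ i.isLt]
  · show 4 + (σ a).val = gx σ (4 + a.val)
    rw [gx_vert]

theorem toM_fold (G : NM) : toM (H387U.fold G) = fold (toM G) := by
  funext p q
  rcases p with i | a <;> rcases q with j | b
  · show (if i.val < 4 ∧ j.val < 4 then - G j.val i.val else G i.val j.val) = - G j.val i.val
    rw [if_pos ⟨i.isLt, j.isLt⟩]
  · show (if i.val < 4 ∧ 4 + b.val < 4 then - G (4 + b.val) i.val else G i.val (4 + b.val))
      = G i.val (4 + b.val)
    rw [if_neg (by omega)]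
  · show (if 4 + a.val < 4 ∧ j.val < 4 then - G j.val (4 + a.val) else G (4 + a.val) j.val)
      = G (4 + a.val) j.val
    rw [if_neg (by omega)]
  · show (if 4 + a.val < 4 ∧ 4 + b.val < 4 then - G (4 + b.val) (4 + a.val)
      else G (4 + a.val) (4 + b.val)) = G (4 + a.val) (4 + b.val)
    rw [if_neg (by omega)]

theorem ix_pv (π : Pk) (s : ℕ → ℕ) (h1 : ∀ i : Fin 4, (π i).val = s i.val)
    (h2 : ∀ i, 4 ≤ i → s i = i) (p : V) : ix (pv π p) = s (ix p) := by
  rcases p with i | a
  · exact h1 i
  · show 4 + a.val = s (4 + a.val)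
    rw [h2 _ (by omega)]

/-- exchange of the pairs. -/
def pX : Pk := Equiv.swap 0 2 * Equiv.swap 1 3

theorem okP_01 : okP (Equiv.swap 0 1) := by
  intro i j
  fin_cases i <;> fin_cases j <;> decide

theorem okP_23 : okP (Equiv.swap 2 3) := by
  intro i j
  fin_cases i <;> fin_cases j <;> decide

theorem okP_X : okP pX := by
  intro i j
  fin_cases i <;> fin_cases j <;> decide

/-- **invariance.** -/
theorem cls_Fn (h : Fr y) : Cls (Fn y) where
  ext := fun b G G' hG => by
    unfold Fn
    congr 1
    funext p q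
    exact hG _ (ix_lt p) _ (ix_lt q)
  perm := fun b G σ => by
    unfold Fn
    have e : toM (fun i j => G (gx σ i) j) = fun p q => toM G (ev σ p) (ev (1 : Pm) q) := by
      funext p q
      unfold toM
      rw [ix_ev]
      congr 1
      rcases q with i | a <;> rfl
    rw [e]
    exact Fv_perm b (toM G) σ 1
  trans := fun b G => Fv_trans h b (toM G)
  neg := fun b G => Fv_neg h b (toM G)
  fold := fun b G => by
    unfold Fn
    rw [toM_fold]
    exact Fv_fold h b (toM G)
  m01 := fun b G => by
    unfold Fn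
    have e : ∀ p, ix (pv (Equiv.swap 0 1) p) = s01 (ix p) :=
      ix_pv _ _ (by decide) (by intro i hi; unfold s01; rw [if_neg (by omega), if_neg (by omega)])
    rw [← Fv_mark b (toM G) okP_01]
    congr 1
    funext p q
    unfold toM
    rw [e, e]
  m23 := fun b G => by
    unfold Fn
    have e : ∀ p, ix (pv (Equiv.swap 2 3) p) = s23 (ix p) :=
      ix_pv _ _ (by decide) (by intro i hi; unfold s23; rw [if_neg (by omega), if_neg (by omega)])
    rw [← Fv_mark b (toM G) okP_23]
    congr 1
    funext p q
    unfold toM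
    rw [e, e]
  mx := fun b G => by
    unfold Fn
    have e : ∀ p, ix (pv pX p) = sx (ix p) :=
      ix_pv _ _ (by decide) (by
        intro i hi
        unfold sx
        rw [if_neg (by omega), if_neg (by omega), if_neg (by omega), if_neg (by omega)])
    rw [← Fv_mark b (toM G) okP_X]
    congr 1
    funext p q
    unfold toM
    rw [e, e]

/-! ### Rows -/

theorem wgt_two (p p' : V) (hp : p ≠ p') (r : V) : wgt (ix p) (ix p') (ix r) = w2 p p' r := by
  unfold wgt w2
  have h15 : ix p ≠ 15 := by have := ix_lt p; omega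
  rw [if_neg h15]
  by_cases h1 : r = p
  · subst h1
    rw [if_pos rfl, if_pos rfl, if_neg fun h => hp (ix_inj h), sub_zero]
  · rw [if_neg fun h => h1 (ix_inj h), if_neg h1]
    by_cases h2 : r = p'
    · subst h2; rw [if_pos rfl, if_pos rfl, zero_sub]
    · rw [if_neg fun h => h2 (ix_inj h), if_neg h2, sub_zero]

theorem vgt_one (p r : V) : vgt (ix p) (ix r) = w1 p r := by
  unfold vgt w1
  by_cases h1 : r = p
  · rw [if_pos h1, if_pos (by rw [h1])]
  · rw [if_neg h1, if_neg fun h => h1 (ix_inj h)]

theorem wgt_seven (r : V) : wgt 15 15 (ix r) = w7 r := by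
  unfold wgt
  rw [if_pos rfl]
  rcases r with i | a
  · show (if 4 ≤ i.val ∧ i.val < 7 then 1 else if 7 ≤ i.val ∧ i.val < 10 then -1 else 0) = (0 : ℤ)
    have := i.isLt
    rw [if_neg (by omega), if_neg (by omega)]
  · show (if 4 ≤ 4 + a.val ∧ 4 + a.val < 7 then 1 else
      if 7 ≤ 4 + a.val ∧ 4 + a.val < 10 then -1 else 0) = (if a.val < 3 then 1 else -1 : ℤ)
    have := a.isLt
    by_cases h : a.val < 3
    · rw [if_pos (by omega), if_pos h]
    · rw [if_neg (by omega), if_pos (by omega), if_neg h]

theorem toM_addG (G : NM) (w : ℕ → ℤ) (q : V) :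
    toM (addG G w (ix q)) = addc (toM G) (fun r => w (ix r)) q := by
  funext p r
  unfold toM addG addc
  by_cases h : r = q
  · rw [if_pos h, if_pos (by rw [h])]
  · rw [if_neg h, if_neg fun h' => h (ix_inj h')]

theorem sum_cols (b : Bool) (G : NM) (w : ℕ → ℤ) :
    ∑ j ∈ Finset.range 6, Fn y b (addG G w (4 + j))
      = ∑ j : Fin 6, Fv y b (addc (toM G) (fun r => w (ix r)) (.inr j)) := by
  rw [Finset.sum_range]
  refine Finset.sum_congr rfl fun j _ => ?_
  unfold Fn
  have e : 4 + j.val = ix (.inr j) := rfl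
  rw [e, toM_addG]

theorem kap_eq (b : Bool) : H387U.kap b = kap b := by
  cases b <;> rfl

theorem row_zero (h : Fr y) (b : Bool) (G : NM) (p p' : V) (hp : p ≠ p') (hb : bs p = bs p') :
    ∑ j ∈ Finset.range 6, Fn y (!b) (addG G (wgt (ix p) (ix p')) (4 + j)) = 0 := by
  rw [sum_cols]
  have e : (fun r => wgt (ix p) (ix p') (ix r)) = w2 p p' := funext fun r => wgt_two p p' hp r
  rw [e]
  exact law0 h _ (toM G) p p' hp hb

theorem row_con (h : Fr y) (b : Bool) (G : NM) (p : V) (i : Fin 4) (hb : bs p ≠ bs (.inl i)) :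
    ∑ j ∈ Finset.range 6, Fn y (!b) (addG G (wgt (ix p) (ix (.inl i))) (4 + j))
      = H387U.kap b * Fn y b (addG G (vgt (ix p)) (ix (.inl i))) := by
  have hp : p ≠ .inl i := fun h' => hb (by rw [h'])
  rw [sum_cols, kap_eq]
  have e : (fun r => wgt (ix p) (ix (.inl i)) (ix r)) = w2 p (.inl i) :=
    funext fun r => wgt_two p _ hp r
  rw [e]
  unfold Fn
  rw [toM_addG]
  have e' : (fun r => vgt (ix p) (ix r)) = w1 p := funext fun r => vgt_one p r
  rw [e']
  exact law1 h b (toM G) p i hb

/-- **all row relations.** -/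
theorem law_Fn (h : Fr y) : Law (Fn y) where
  toCls := cls_Fn h
  row := by
    intro i i' hok b G
    -- numbers of indices
    have red : ∀ (i i' : ℕ), (i = 15 ∧ i' = 15) ∨ (4 ≤ i ∧ i < 10 ∧ i' < 10 ∧ i ≠ i') ∨
        (i = 0 ∧ i' = 1) ∨ (i = 2 ∧ i' = 3) ∨ (i < 2 ∧ 2 ≤ i' ∧ i' < 4) →
        ∑ j ∈ Finset.range 6, Fn y (!b) (addG G (wgt i i') (4 + j))
          = if isz i i' = true then 0 else H387U.kap b * Fn y b (addG G (vgt i) i') := by
      intro i i' hc
      rcases hc with ⟨rfl, rfl⟩ | ⟨h4, h10, h10', hne⟩ | ⟨rfl, rfl⟩ | ⟨rfl, rfl⟩ | ⟨h2, h2', h4'⟩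
      · rw [if_pos (by decide), sum_cols]
        have e : (fun r => wgt 15 15 (ix r)) = w7 := funext wgt_seven
        rw [e]
        exact law7 h _ (toM G)
      · obtain ⟨a, ha⟩ : ∃ a : Fin 6, i = ix (.inr a) :=
          ⟨⟨i - 4, by omega⟩, by show i = 4 + (i - 4); omega⟩
        by_cases hi' : 4 ≤ i'
        · obtain ⟨a', ha'⟩ : ∃ a : Fin 6, i' = ix (.inr a) :=
            ⟨⟨i' - 4, by omega⟩, by show i' = 4 + (i' - 4); omega⟩
          have hz : isz i i' = true := by
            unfold isz
            rw [Bool.or_eq_true, Bool.or_eq_true]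
            exact Or.inl (Or.inl (Nat.ble_eq_true_of_le hi'))
          rw [if_pos hz, ha, ha']
          refine row_zero h b G _ _ ?_ rfl
          intro h'
          exact hne (by rw [ha, ha', h'])
        · obtain ⟨k, hk⟩ : ∃ k : Fin 4, i' = ix (.inl k) := ⟨⟨i', by omega⟩, rfl⟩
          have hz : ¬ isz i i' = true := by
            unfold isz
            rw [Bool.or_eq_true, Bool.or_eq_true, Bool.and_eq_true, Bool.and_eq_true]
            rintro ((h' | h') | h')
            · exact hi' (Nat.le_of_ble_eq_true h')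
            · have := Nat.eq_of_beq_eq_true h'.1; omega
            · have := Nat.eq_of_beq_eq_true h'.1; omega
          rw [if_neg hz, ha, hk]
          refine row_con h b G _ k ?_
          have h2 : bs (.inl k) ≠ 2 := by
            unfold bs; simp only; split_ifs <;> norm_num
          exact fun h' => h2 h'.symm
      · rw [if_pos (by decide)]
        exact row_zero h b G (.inl 0) (.inl 1) (by decide) (by decide)
      · rw [if_pos (by decide)]
        exact row_zero h b G (.inl 2) (.inl 3) (by decide) (by decide)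
      · obtain ⟨l, hl⟩ : ∃ k : Fin 4, i = ix (.inl k) := ⟨⟨i, by omega⟩, rfl⟩
        obtain ⟨k, hk⟩ : ∃ k : Fin 4, i' = ix (.inl k) := ⟨⟨i', by omega⟩, rfl⟩
        have hz : ¬ isz i i' = true := by
          unfold isz
          rw [Bool.or_eq_true, Bool.or_eq_true, Bool.and_eq_true, Bool.and_eq_true]
          rintro ((h' | h') | h')
          · have := Nat.le_of_ble_eq_true h'; omega
          · have := Nat.eq_of_beq_eq_true h'.2; omega
          · have := Nat.eq_of_beq_eq_true h'.1; omega
        rw [if_neg hz, hl, hk]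
        refine row_con h b G _ k ?_
        have hl2 : l.val < 2 := by
          have : i = l.val := hl
          omega
        have hk2 : ¬ k.val < 2 := by
          have : i' = k.val := hk
          omega
        intro h'
        exact hk2 (((bs_lt l k).1 h').1 hl2)
    apply red
    unfold okR at hok
    simp only [Bool.or_eq_true, Bool.and_eq_true, Nat.beq_eq, Nat.ble_eq, Nat.blt_eq,
      Bool.not_eq_true'] at hok
    rcases hok with (((h1 | h1) | h1) | h1) | h1
    · exact Or.inl h1
    · refine Or.inr (Or.inl ⟨h1.1.1.1, h1.1.1.2, h1.1.2, ?_⟩)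
      intro h'
      have h2 := h1.2
      rw [h', Nat.beq_refl] at h2
      exact absurd h2 (by decide)
    · exact Or.inr (Or.inr (Or.inl h1))
    · exact Or.inr (Or.inr (Or.inr (Or.inl h1)))
    · exact Or.inr (Or.inr (Or.inr (Or.inr ⟨h1.1.1, h1.1.2, h1.2⟩)))

theorem abs_Fn_le (h : Fr y) (b : Bool) (G : NM) : |Fn y b G| ≤ 5 / 2 := abs_Fv_le h b _

theorem Fn_one (y : V → V → ℂ) : Fn y false (fun _ _ => 0) = 1 := Fv_one y

/-- exponents of the four-cycle. -/
def Gn : NM := fun i j => if i = 0 ∧ j = 2 then 1 else if i = 1 ∧ j = 2 then -1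
  else if i = 1 ∧ j = 3 then 1 else if i = 0 ∧ j = 3 then -1 else 0

theorem toM_Gn : toM Gn = Gw := by
  funext p q
  rcases p with i | a
  · rcases q with j | b
    · fin_cases i <;> fin_cases j <;> decide
    · fin_cases i <;> fin_cases b <;> decide
  · rcases q with j | b
    · fin_cases a <;> fin_cases j <;> decide
    · fin_cases a <;> fin_cases b <;> decide

/-- **End theorem in numbers.** -/
theorem no_four_star_n (H : ∀ y : V → V → ℂ, Fr y → Fn y false Gn < 1 / 2) :
    ¬ ∃ B : Fin 4 → M6, IsMUBs B := by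
  refine no_four_star fun y hy => ?_
  have := H y hy
  unfold Fn at this
  rwa [toM_Gn] at this

end Vale.Agent.P355.H693U
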