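import Vale.Agent.P355.H693U.Law
import Vale.Agent.P355.H693.VAvg

/-! Frames of four mutually unbiased bases; the four-cycle of the marks. -/

namespace Vale.Agent.P355.H693U

open Finset Matrix Vale.Agent.P355 Vale.Agent.P355.H129T
open Vale.Agent.P355.H138 (pw6 r6 s6 pw6_nonneg pw6_le PSD par6 pw6_mul)

set_option linter.unusedSectionVars false

variable {m : ℕ} {B : Fin m → M6}

/-- the marks: `c, c'` in the basis `r`, `d, d'` in the basis `s`. -/
def mpt (r s : Fin m) (c c' d d' : Fin 6) (i : Fin 4) : Fin m × Fin 6 :=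
  ![(r, c), (r, c'), (s, d), (s, d')] i

/-- points of the rows. -/
def rpt (p r s : Fin m) (c c' d d' : Fin 6) : V → Fin m × Fin 6 :=
  Sum.elim (mpt r s c c' d d') (fun a => (p, a))

/-- the array of a frame. -/
noncomputable def yF (B : Fin m → M6) (p q r s : Fin m) (c c' d d' : Fin 6) : V → V → ℂ :=
  fun u v => H147.hh B (rpt p r s c c' d d' u) (rpt q r s c c' d d' v)

theorem s6_eq : H147.r6 = s6 := rfl

theorem mpt_bs (r s : Fin m) (hrs : r ≠ s) (c c' d d' : Fin 6) (hc : c ≠ c') (hd : d ≠ d')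
    (i j : Fin 4) : ((mpt r s c c' d d' i).1 = (mpt r s c c' d d' j).1 ↔
      bs (.inl i) = bs (.inl j)) ∧ (i ≠ j → mpt r s c c' d d' i ≠ mpt r s c c' d d' j) := by
  fin_cases i <;> fin_cases j <;> simp [mpt, bs, hrs, hrs.symm, hc, hc.symm, hd, hd.symm]

theorem fr_yF (hB : IsMUBs B) {p q r s : Fin m} (hpq : p ≠ q) (hpr : p ≠ r) (hps : p ≠ s)
    (hqr : q ≠ r) (hqs : q ≠ s) (hrs : r ≠ s) {c c' d d' : Fin 6} (hc : c ≠ c') (hd : d ≠ d') :
    Fr (yF B p q r s c c' d d') := by
  have hb := mpt_bs r s hrs c c' d d' hc hd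
  have h1 : ∀ i, (mpt r s c c' d d' i).1 = r ∨ (mpt r s c c' d d' i).1 = s := by
    intro i; fin_cases i <;> simp [mpt]
  -- generic facts about points
  have hbs : ∀ (t : Fin m), t ≠ r → t ≠ s → ∀ u v : V,
      ((rpt t r s c c' d d' u).1 = (rpt t r s c c' d d' v).1 ↔ bs u = bs v) ∧
      (u ≠ v → rpt t r s c c' d d' u ≠ rpt t r s c c' d d' v) := by
    intro t htr hts u v
    have h2 : ∀ i : Fin 4, bs (.inl i) ≠ 2 := by
      intro i; unfold bs; simp only; split_ifs <;> norm_num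
    rcases u with i | a <;> rcases v with j | b
    · refine ⟨(hb i j).1, fun h => (hb i j).2 fun h' => h (by rw [h'])⟩
    · have h3 : (mpt r s c c' d d' i).1 ≠ t := by
        rcases h1 i with h | h <;> rw [h]
        · exact Ne.symm htr
        · exact Ne.symm hts
      refine ⟨iff_of_false h3 (h2 i), fun _ h' => h3 ?_⟩
      exact congrArg Prod.fst h'
    · have h3 : (mpt r s c c' d d' j).1 ≠ t := by
        rcases h1 j with h | h <;> rw [h]
        · exact Ne.symm htr
        · exact Ne.symm hts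
      refine ⟨iff_of_false (fun h' => h3 h'.symm) (fun h' => h2 j h'.symm), fun _ h' => h3 ?_⟩
      exact (congrArg Prod.fst h').symm
    · refine ⟨iff_of_true rfl rfl, fun h h' => h ?_⟩
      have : (t, a) = (t, b) := h'
      rw [(Prod.mk.inj this).2]
  have hne : ∀ (t t' : Fin m), t ≠ t' → t' ≠ r → t' ≠ s → ∀ u : V,
      (rpt t r s c c' d d' u).1 ≠ t' := by
    intro t t' htt h2 h3 u
    rcases u with i | a
    · rcases h1 i with h | h
      · show (mpt r s c c' d d' i).1 ≠ t'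
        rw [h]; exact Ne.symm h2
      · show (mpt r s c c' d d' i).1 ≠ t'
        rw [h]; exact Ne.symm h3
    · exact htt
  have n7 : ∀ (t t' : Fin m), t ≠ t' → t ≠ r → t' ≠ r → ∀ e : Pm,
      ∑ j : Fin 6, H147.hh B (t, e 0) (t', j) * H147.hh B (t, e 1) (t', j) *
        H147.hh B (t, e 2) (t', j) * (star (H147.hh B (t, e 3) (t', j)) *
          star (H147.hh B (t, e 4) (t', j)) * star (H147.hh B (t, e 5) (t', j))) = 0 := by
    intro t t' h2 h3 h4 e
    have n1 := (H182.triple (hB.1 t) (hB.1 t') (hB.1 r) (hB.2 t t' h2)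
      (hB.2 t r h3) (hB.2 t' r h4)).1 e
    have hW : ∀ a b, H147.hh B (t, a) (t', b) = s6 * ((B t)ᴴ * B t') a b := by
      intro a b
      unfold H147.hh H147.ipr
      rw [if_neg h2]
      rfl
    simp only [hW, star_mul', star_s6]
    have e1 : ∀ j, s6 * ((B t)ᴴ * B t') (e 0) j * (s6 * ((B t)ᴴ * B t') (e 1) j) *
        (s6 * ((B t)ᴴ * B t') (e 2) j) * (s6 * star (((B t)ᴴ * B t') (e 3) j) *
        (s6 * star (((B t)ᴴ * B t') (e 4) j)) * (s6 * star (((B t)ᴴ * B t') (e 5) j)))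
        = s6 ^ 6 * (((B t)ᴴ * B t') (e 0) j * ((B t)ᴴ * B t') (e 1) j *
          ((B t)ᴴ * B t') (e 2) j * (star (((B t)ᴴ * B t') (e 3) j) *
          star (((B t)ᴴ * B t') (e 4) j) * star (((B t)ᴴ * B t') (e 5) j))) := fun j => by ring
    simp only [e1, ← Finset.mul_sum, n1, mul_zero]
  constructor
  · intro u v
    unfold yF
    rw [H147.star_hh, H147.hh_unit hB]
  · intro i j
    unfold yF
    rw [H147.star_hh]
    rfl
  · intro u v huv hbv
    unfold yF
    simp only [H147.star_hh]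
    have h2 := H147.hh_contract hB (rpt p r s c c' d d' u) (rpt p r s c c' d d' v) q
      (hne p q hpq hqr hqs u) (Ne.symm (hne p q hpq hqr hqs v))
    have h3 := hbs p hpr hps u v
    rw [if_pos (h3.1.2 hbv), if_neg fun h' => h3.2 huv (Prod.ext (h3.1.2 hbv) h')] at h2
    exact h2
  · intro u i hbv
    unfold yF
    simp only [H147.star_hh]
    have h2 := H147.hh_contract hB (rpt p r s c c' d d' u) (rpt p r s c c' d d' (.inl i)) q
      (hne p q hpq hqr hqs u) (Ne.symm (hne p q hpq hqr hqs (.inl i)))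
    have h3 := hbs p hpr hps u (.inl i)
    rw [if_neg fun h' => hbv (h3.1.1 h')] at h2
    exact h2
  · intro u v huv hbv
    unfold yF
    simp only [H147.star_hh]
    have h2 := H147.hh_contract hB (rpt q r s c c' d d' u) (rpt q r s c c' d d' v) p
      (hne q p hpq.symm hpr hps u) (Ne.symm (hne q p hpq.symm hpr hps v))
    have h3 := hbs q hqr hqs u v
    rw [if_pos (h3.1.2 hbv), if_neg fun h' => h3.2 huv (Prod.ext (h3.1.2 hbv) h')] at h2
    exact h2
  · intro u i hbv
    unfold yF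
    simp only [H147.star_hh]
    have h2 := H147.hh_contract hB (rpt q r s c c' d d' u) (rpt q r s c c' d d' (.inl i)) p
      (hne q p hpq.symm hpr hps u) (Ne.symm (hne q p hpq.symm hpr hps (.inl i)))
    have h3 := hbs q hqr hqs u (.inl i)
    rw [if_neg fun h' => hbv (h3.1.1 h')] at h2
    exact h2
  · intro e
    exact n7 p q hpq hpr hqr e
  · intro e
    have h2 := n7 q p hpq.symm hqr hpr e
    have h3 := congrArg star h2
    rw [star_sum, star_zero] at h3
    rw [← h3]
    refine Finset.sum_congr rfl fun j _ => ?_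
    simp only [star_mul', star_star, H147.star_hh]
    unfold yF
    simp only [H147.star_hh]
    rfl

/-! ### The four-cycle -/

/-- exponent matrix of the four-cycle. -/
def Gw : Mx
  | .inl i, .inl j => if i = 0 ∧ j = 2 then 1 else if i = 1 ∧ j = 2 then -1
      else if i = 1 ∧ j = 3 then 1 else if i = 0 ∧ j = 3 then -1 else 0
  | _, _ => 0

/-- the four-cycle. -/
noncomputable def wv (y : V → V → ℂ) : ℂ :=
  y (.inl 0) (.inl 2) * star (y (.inl 1) (.inl 2)) * y (.inl 1) (.inl 3)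
    * star (y (.inl 0) (.inl 3))

theorem mk_Gw {y : V → V → ℂ} (h : Uni y) :
    ∏ i : Fin 4, ∏ j : Fin 4, y (.inl i) (.inl j) ^ Gw (.inl i) (.inl j) = wv y := by
  have g00 : Gw (.inl 0) (.inl 0) = 0 := by decide
  have g01 : Gw (.inl 0) (.inl 1) = 0 := by decide
  have g02 : Gw (.inl 0) (.inl 2) = 1 := by decide
  have g03 : Gw (.inl 0) (.inl 3) = -1 := by decide
  have g10 : Gw (.inl 1) (.inl 0) = 0 := by decide
  have g11 : Gw (.inl 1) (.inl 1) = 0 := by decide
  have g12 : Gw (.inl 1) (.inl 2) = -1 := by decide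
  have g13 : Gw (.inl 1) (.inl 3) = 1 := by decide
  have g2 : ∀ j : Fin 4, Gw (.inl 2) (.inl j) = 0 := by decide
  have g3 : ∀ j : Fin 4, Gw (.inl 3) (.inl j) = 0 := by decide
  rw [Fin.prod_univ_four, Fin.prod_univ_four, Fin.prod_univ_four, Fin.prod_univ_four,
    Fin.prod_univ_four, g00, g01, g02, g03, g10, g11, g12, g13, g2, g2, g2, g2, g3, g3, g3, g3,
    zpow_zero, zpow_zero, zpow_zero, zpow_zero, zpow_zero, zpow_zero, zpow_zero, zpow_zero,
    zpow_zero, zpow_zero, zpow_zero, zpow_zero, zpow_one, zpow_one, _root_.zpow_neg_one, _root_.zpow_neg_one,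
    h.inv, h.inv]
  unfold wv
  ring

theorem mon_Gw {y : V → V → ℂ} (h : Uni y) (σ τ : Fin 6 → Fin 6) : mon y Gw σ τ = wv y := by
  have e1 : ∀ p ∈ (Finset.univ : Finset (Fin 6)),
      ∏ q, y (ex σ (.inr p)) (ex τ q) ^ Gw (.inr p) q = 1 := by
    intro p _
    exact Finset.prod_eq_one fun q _ => by
      have : Gw (.inr p) q = 0 := by cases q <;> rfl
      rw [this, zpow_zero]
  have e2 : ∀ i ∈ (Finset.univ : Finset (Fin 4)), ∏ q, y (ex σ (.inl i)) (ex τ q) ^ Gw (.inl i) q
      = ∏ j : Fin 4, y (.inl i) (.inl j) ^ Gw (.inl i) (.inl j) := by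
    intro i _
    rw [Fintype.prod_sum_type]
    have : ∏ q : Fin 6, y (ex σ (.inl i)) (ex τ (.inr q)) ^ Gw (.inl i) (.inr q) = 1 :=
      Finset.prod_eq_one fun q _ => by
        have : Gw (.inl i) (.inr q) = 0 := rfl
        rw [this, zpow_zero]
    rw [this, mul_one]
    rfl
  have e3 : mon y Gw σ τ = (∏ i : Fin 4, ∏ q, y (ex σ (.inl i)) (ex τ q) ^ Gw (.inl i) q)
      * ∏ p : Fin 6, ∏ q, y (ex σ (.inr p)) (ex τ q) ^ Gw (.inr p) q := by
    unfold mon
    rw [Fintype.prod_sum_type]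
  rw [e3, Finset.prod_congr rfl e1, Finset.prod_congr rfl e2, Finset.prod_const_one, mul_one]
  exact mk_Gw h

theorem iv_Gw {y : V → V → ℂ} (h : Uni y) : iv y Gw = wv y := by
  unfold iv
  have e : ∑ σ : Pm, ∑ τ : Pm, mon y Gw σ τ = 518400 * wv y := by
    have e1 : ∀ σ ∈ (Finset.univ : Finset Pm), ∑ τ : Pm, mon y Gw σ τ = 720 * wv y := by
      intro σ _
      have e0 : ∀ τ ∈ (Finset.univ : Finset Pm), mon y Gw σ τ = wv y := fun τ _ => mon_Gw h σ τ
      rw [Finset.sum_congr rfl e0, Finset.sum_const, card_pm, nsmul_eq_mul]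
      norm_num
    rw [Finset.sum_congr rfl e1, Finset.sum_const, card_pm, nsmul_eq_mul, ← mul_assoc]
    norm_num
  rw [e, ← mul_assoc]
  norm_num

theorem wv_dag {y : V → V → ℂ} (h : Fr y) : wv (dag y) = wv y := by
  unfold wv dag
  rw [h.herm 0 2, h.herm 1 2, h.herm 1 3, h.herm 0 3]
  simp only [star_star]

/-- decidable form of the admissible permutations. -/
theorem key8 : ∀ a b c d : Fin 4, (a.val < 2 ↔ b.val < 2) →
    a ≠ b → (c.val < 2 ↔ d.val < 2) → c ≠ d → ¬ (a.val < 2 ↔ c.val < 2) →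
    (a, b, c, d) ∈ ([(0, 1, 2, 3), (0, 1, 3, 2), (1, 0, 2, 3), (1, 0, 3, 2), (2, 3, 0, 1),
      (2, 3, 1, 0), (3, 2, 0, 1), (3, 2, 1, 0)] : List (Fin 4 × Fin 4 × Fin 4 × Fin 4)) := by
  decide

theorem bs_lt (i j : Fin 4) : bs (.inl i) = bs (.inl j) ↔ (i.val < 2 ↔ j.val < 2) := by
  unfold bs
  simp only
  by_cases h1 : i.val < 2 <;> by_cases h2 : j.val < 2 <;> simp [h1, h2]

theorem wv_act {y : V → V → ℂ} (h : Fr y) {π : Pk} (hπ : okP π) :
    (wv (gact π y)).re = (wv y).re := by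
  have h01 := (bs_lt _ _).1 ((hπ 0 1).2 (by decide))
  have h23 := (bs_lt _ _).1 ((hπ 2 3).2 (by decide))
  have h02 : ¬ ((π 0).val < 2 ↔ (π 2).val < 2) := fun h' =>
    absurd ((hπ 0 2).1 ((bs_lt _ _).2 h')) (by decide)
  have i01 : π 0 ≠ π 1 := fun h' => absurd (π.injective h') (by decide)
  have i23 : π 2 ≠ π 3 := fun h' => absurd (π.injective h') (by decide)
  have e : wv (gact π y) = y (.inl (π 0)) (.inl (π 2)) * star (y (.inl (π 1)) (.inl (π 2)))
      * y (.inl (π 1)) (.inl (π 3)) * star (y (.inl (π 0)) (.inl (π 3))) := rfl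
  rw [e]
  have hw : wv y = y (.inl 0) (.inl 2) * star (y (.inl 1) (.inl 2)) * y (.inl 1) (.inl 3)
    * star (y (.inl 0) (.inl 3)) := rfl
  have hs : star (wv y) = star (y (.inl 0) (.inl 2)) * y (.inl 1) (.inl 2)
      * star (y (.inl 1) (.inl 3)) * y (.inl 0) (.inl 3) := by
    rw [hw]; simp only [star_mul', star_star]
  have s20 : y (.inl 2) (.inl 0) = star (y (.inl 0) (.inl 2)) := h.herm 0 2
  have s21 : y (.inl 2) (.inl 1) = star (y (.inl 1) (.inl 2)) := h.herm 1 2
  have s30 : y (.inl 3) (.inl 0) = star (y (.inl 0) (.inl 3)) := h.herm 0 3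
  have s31 : y (.inl 3) (.inl 1) = star (y (.inl 1) (.inl 3)) := h.herm 1 3
  have c1 : ∀ z : ℂ, z = wv y → z.re = (wv y).re := fun z hz => by rw [hz]
  have c2 : ∀ z : ℂ, z = star (wv y) → z.re = (wv y).re := fun z hz => by rw [hz, re_star]
  have h8 := key8 (π 0) (π 1) (π 2) (π 3) h01 i01 h23 i23 h02
  simp only [List.mem_cons, Prod.mk.injEq, List.not_mem_nil, or_false] at h8
  rcases h8 with h8 | h8 | h8 | h8 | h8 | h8 | h8 | h8 <;>
    obtain ⟨q0, q1, q2, q3⟩ := h8 <;> rw [q0, q1, q2, q3]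
  · exact c1 _ rfl
  · refine c2 _ ?_
    rw [hs]; ring
  · refine c2 _ ?_
    rw [hs]; ring
  · refine c1 _ ?_
    rw [hw]; ring
  · refine c2 _ ?_
    rw [hs, s20, s30, s31, s21, star_star, star_star]; ring
  · refine c1 _ ?_
    rw [hw, s20, s30, s31, s21, star_star, star_star]; ring
  · refine c1 _ ?_
    rw [hw, s20, s30, s31, s21, star_star, star_star]; ring
  · refine c2 _ ?_
    rw [hs, s20, s30, s31, s21, star_star, star_star]; ring

/-- **value of the four-cycle class.** -/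
theorem Fv_Gw {y : V → V → ℂ} (h : Fr y) : Fv y false Gw = (wv y).re := by
  unfold Fv
  have e : ∀ π ∈ D4, (iv (gact π y) Gw).re + (iv (gact π (dag y)) Gw).re = 2 * (wv y).re := by
    intro π hπ
    have hf := h.actp (mem_D4.1 hπ)
    have hg := h.dag.actp (mem_D4.1 hπ)
    rw [iv_Gw hf.uni, iv_Gw hg.uni, wv_act h (mem_D4.1 hπ), wv_act h.dag (mem_D4.1 hπ),
      wv_dag h]
    ring
  rw [Finset.sum_congr rfl e, Finset.sum_const, card_D4]
  unfold pw6
  simp only [Bool.false_eq_true, if_false, nsmul_eq_mul]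
  push_cast
  ring

/-! ### Pigeonhole principle for six unimodular numbers -/

theorem re_pow2 {z : ℂ} (h : z * star z = 1) : (z ^ 2).re = 2 * z.re ^ 2 - 1 := by
  have h1 := congrArg Complex.re h
  simp only [Complex.star_def, Complex.mul_re, Complex.conj_re, Complex.conj_im,
    Complex.one_re] at h1
  have : (z ^ 2).re = z.re * z.re - z.im * z.im := by rw [sq, Complex.mul_re]
  rw [this]; linarith

theorem re_pow3 {z : ℂ} (h : z * star z = 1) : (z ^ 3).re = 4 * z.re ^ 3 - 3 * z.re := by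
  have h1 := congrArg Complex.re h
  simp only [Complex.star_def, Complex.mul_re, Complex.conj_re, Complex.conj_im,
    Complex.one_re] at h1
  have h2 : z.im * z.im = 1 - z.re * z.re := by linarith
  have : (z ^ 3).re = z.re ^ 3 - 3 * z.re * (z.im * z.im) := by
    rw [pow_succ, sq]
    simp only [Complex.mul_re, Complex.mul_im]
    ring
  rw [this, h2]; ring

theorem re_pow4 {z : ℂ} (h : z * star z = 1) :
    (z ^ 4).re = 8 * z.re ^ 4 - 8 * z.re ^ 2 + 1 := by
  have h1 : z ^ 2 * star (z ^ 2) = 1 := by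
    rw [star_pow, ← mul_pow, h, one_pow]
  have h2 := re_pow2 h1
  rw [← pow_mul] at h2
  rw [h2, re_pow2 h]; ring

theorem gram_pow (u : Fin 6 → ℂ) (k : ℕ) :
    0 ≤ ∑ i, ∑ j, ((u i * star (u j)) ^ k).re := by
  have e : ∑ i, ∑ j, ((u i * star (u j)) ^ k).re
      = ((∑ i, u i ^ k) * star (∑ i, u i ^ k)).re := by
    rw [star_sum, Finset.sum_mul_sum, Complex.re_sum]
    refine Finset.sum_congr rfl fun i _ => ?_
    rw [Complex.re_sum]
    refine Finset.sum_congr rfl fun j _ => ?_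
    rw [mul_pow, star_pow]
  rw [e, Complex.star_def, Complex.mul_conj, Complex.ofReal_re]
  exact Complex.normSq_nonneg _

theorem pigeon (u : Fin 6 → ℂ) (hu : ∀ i, u i * star (u i) = 1) :
    ∃ i j, i ≠ j ∧ 1 / 2 ≤ (u i * star (u j)).re := by
  by_contra hc
  push Not at hc
  have hz : ∀ i j, (u i * star (u j)) * star (u i * star (u j)) = 1 := by
    intro i j
    rw [star_mul', star_star]
    calc u i * star (u j) * (star (u i) * u j) = (u i * star (u i)) * (u j * star (u j)) := by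
          ring
      _ = 1 := by rw [hu, hu, one_mul]
  obtain ⟨t, ht⟩ : ∃ t : Fin 6 → Fin 6 → ℝ, t = fun i j => (u i * star (u j)).re := ⟨_, rfl⟩
  have ht' : ∀ i j, (u i * star (u j)).re = t i j := fun i j => by rw [ht]
  have lo : ∀ i j, -1 ≤ t i j ∧ t i j ≤ 1 := by
    intro i j
    have h1 := congrArg Complex.re (hz i j)
    have h2 : (u i * star (u j) * star (u i * star (u j))).re
        = (u i * star (u j)).re * (u i * star (u j)).re
          + (u i * star (u j)).im * (u i * star (u j)).im := by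
      generalize u i * star (u j) = z
      rw [Complex.star_def, Complex.mul_conj, Complex.ofReal_re, Complex.normSq_apply]
    rw [h2, ht', Complex.one_re] at h1
    constructor <;> nlinarith [mul_self_nonneg ((u i * star (u j)).im)]
  have g1 := gram_pow u 1
  have g2 := gram_pow u 2
  have g3 := gram_pow u 3
  have g4 := gram_pow u 4
  simp only [pow_one, ht'] at g1
  simp only [re_pow2 (hz _ _), ht'] at g2
  simp only [re_pow3 (hz _ _), ht'] at g3
  simp only [re_pow4 (hz _ _), ht'] at g4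
  have dg : ∀ i, t i i = 1 := by
    intro i; rw [← ht', hu, Complex.one_re]
  -- the polynomial
  obtain ⟨f, hf⟩ : ∃ f : ℝ → ℝ, f = fun x => (x - 1 / 2) * (x + 1) * (x + 1 / 2) ^ 2 :=
    ⟨_, rfl⟩
  have hfx : ∀ x, f x = 1 / 8 * (8 * x ^ 4 - 8 * x ^ 2 + 1) + 3 / 8 * (4 * x ^ 3 - 3 * x)
      + 5 / 8 * (2 * x ^ 2 - 1) + 6 / 8 * x + 3 / 8 := by
    intro x; rw [hf]; ring
  have tot : (27 / 2 : ℝ) ≤ ∑ i, ∑ j, f (t i j) := by
    have e : ∑ i, ∑ j, f (t i j) = 1 / 8 * ∑ i, ∑ j, (8 * t i j ^ 4 - 8 * t i j ^ 2 + 1)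
        + 3 / 8 * ∑ i, ∑ j, (4 * t i j ^ 3 - 3 * t i j)
        + 5 / 8 * ∑ i, ∑ j, (2 * t i j ^ 2 - 1) + 6 / 8 * ∑ i, ∑ j, t i j
        + ∑ _i : Fin 6, ∑ _j : Fin 6, (3 / 8 : ℝ) := by
      simp only [Finset.mul_sum, ← Finset.sum_add_distrib]
      exact Finset.sum_congr rfl fun i _ => Finset.sum_congr rfl fun j _ => hfx _
    rw [e]
    have c : ∑ _i : Fin 6, ∑ _j : Fin 6, (3 / 8 : ℝ) = 27 / 2 := by
      simp only [Finset.sum_const, Finset.card_univ, Fintype.card_fin, nsmul_eq_mul]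
      norm_num
    rw [c]
    linarith
  -- split off the diagonal
  have sp : ∀ g : ℝ → ℝ, ∑ i, ∑ j, g (t i j)
      = 6 * g 1 + ∑ i, ∑ j ∈ Finset.univ.erase i, g (t i j) := by
    intro g
    have e : ∀ i ∈ (Finset.univ : Finset (Fin 6)), ∑ j, g (t i j)
        = g 1 + ∑ j ∈ Finset.univ.erase i, g (t i j) := by
      intro i _
      rw [← Finset.add_sum_erase _ _ (Finset.mem_univ i), dg]
    rw [Finset.sum_congr rfl e, Finset.sum_add_distrib, Finset.sum_const, Finset.card_univ,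
      Fintype.card_fin, nsmul_eq_mul]
    norm_num
  have np : ∀ i, ∀ j ∈ Finset.univ.erase i, f (t i j) ≤ 0 := by
    intro i j hj
    have h1 := hc i j (Finset.ne_of_mem_erase hj).symm
    rw [ht'] at h1
    have h2 := (lo i j).1
    rw [hf]
    have a1 : (t i j - 1 / 2) * (t i j + 1) ≤ 0 :=
      mul_nonpos_of_nonpos_of_nonneg (by linarith) (by linarith)
    exact mul_nonpos_of_nonpos_of_nonneg a1 (sq_nonneg _)
  have f1 : f 1 = 9 / 4 := by rw [hf]; norm_num
  rw [sp f, f1] at tot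
  have z0 : ∑ i, ∑ j ∈ Finset.univ.erase i, f (t i j) = 0 := by
    refine le_antisymm ?_ (by linarith)
    exact Finset.sum_nonpos fun i _ => Finset.sum_nonpos fun j hj => np i j hj
  have z1 : ∀ i, ∀ j ∈ Finset.univ.erase i, f (t i j) = 0 := by
    intro i j hj
    have h1 := (Finset.sum_eq_zero_iff_of_nonpos fun i _ =>
      Finset.sum_nonpos fun j hj => np i j hj).1 z0 i (Finset.mem_univ i)
    exact (Finset.sum_eq_zero_iff_of_nonpos fun j hj => np i j hj).1 h1 j hj
  have z2 : ∀ i, ∀ j ∈ Finset.univ.erase i, t i j ≤ -1 / 2 := by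
    intro i j hj
    have h0 := z1 i j hj
    have h1 := hc i j (Finset.ne_of_mem_erase hj).symm
    rw [ht'] at h1
    have h2 := (lo i j).1
    rw [hf] at h0
    simp only [mul_eq_zero, pow_eq_zero_iff, ne_eq, OfNat.ofNat_ne_zero, not_false_eq_true] at h0
    rcases h0 with (h0 | h0) | h0 <;> linarith
  rw [sp fun x => x] at g1
  have z3 : ∑ i : Fin 6, ∑ j ∈ Finset.univ.erase i, t i j ≤ ∑ _i : Fin 6, (-5 / 2 : ℝ) := by
    refine Finset.sum_le_sum fun i _ => ?_
    refine (Finset.sum_le_sum (z2 i)).trans ?_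
    rw [Finset.sum_const, Finset.card_erase_of_mem (Finset.mem_univ i), Finset.card_univ,
      Fintype.card_fin, nsmul_eq_mul]
    norm_num
  have z4 : ∑ _i : Fin 6, (-5 / 2 : ℝ) = -15 := by
    rw [Finset.sum_const, Finset.card_univ, Fintype.card_fin, nsmul_eq_mul]
    norm_num
  rw [z4] at z3
  linarith

/-- **End of the STAR route**: if the four-cycle of every frame has real part below `1/2`, there
are no four mutually unbiased bases. -/
theorem no_four_star (H : ∀ y : V → V → ℂ, Fr y → Fv y false Gw < 1 / 2) :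
    ¬ ∃ B : Fin 4 → M6, IsMUBs B := by
  rintro ⟨B, hB⟩
  have hu : ∀ d : Fin 6, (H147.hh B (2, 0) (3, d) * star (H147.hh B (2, 1) (3, d)))
      * star (H147.hh B (2, 0) (3, d) * star (H147.hh B (2, 1) (3, d))) = 1 := by
    intro d
    rw [star_mul', star_star]
    have h1 : H147.hh B (2, 0) (3, d) * star (H147.hh B (2, 0) (3, d)) = 1 := by
      rw [H147.star_hh, H147.hh_unit hB]
    have h2 : H147.hh B (2, 1) (3, d) * star (H147.hh B (2, 1) (3, d)) = 1 := by
      rw [H147.star_hh, H147.hh_unit hB]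
    calc _ = (H147.hh B (2, 0) (3, d) * star (H147.hh B (2, 0) (3, d)))
          * (H147.hh B (2, 1) (3, d) * star (H147.hh B (2, 1) (3, d))) := by ring
      _ = 1 := by rw [h1, h2, one_mul]
  obtain ⟨d, d', hd, hge⟩ := pigeon _ hu
  have hf : Fr (yF B 0 1 2 3 0 1 d d') :=
    fr_yF hB (by decide) (by decide) (by decide) (by decide) (by decide) (by decide)
      (by decide) hd
  have h1 := H _ hf
  rw [Fv_Gw hf] at h1
  have e : wv (yF B 0 1 2 3 0 1 d d')
      = (H147.hh B (2, 0) (3, d) * star (H147.hh B (2, 1) (3, d)))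
        * star (H147.hh B (2, 0) (3, d') * star (H147.hh B (2, 1) (3, d'))) := by
    rw [star_mul', star_star]
    have e0 : wv (yF B 0 1 2 3 0 1 d d') = H147.hh B (2, 0) (3, d)
        * star (H147.hh B (2, 1) (3, d)) * H147.hh B (2, 1) (3, d')
        * star (H147.hh B (2, 0) (3, d')) := rfl
    rw [e0]; ring
  rw [e] at h1
  linarith

end Vale.Agent.P355.H693U
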