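import Vale.Agent.P355.H129T.Inj

/-! Arrays of inner products of two full bases `A` (rows), `X` (columns) and four marks
`c, c'` (a third basis) and `d, d'` (a fourth basis), and their class function, averaged over the
symmetries of the marks and the exchange of rows and columns. -/

namespace Vale.Agent.P355.H693U

open Finset Vale.Agent.P355 Vale.Agent.P355.H129T
open Vale.Agent.P355.H138 (pw6 r6 s6 pw6_nonneg pw6_le PSD par6 pw6_mul)

set_option linter.unusedSectionVars false

/-- indices: marks `0,1,2,3`, vertices. -/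
abbrev V : Type := Vx 4
/-- exponent matrices. -/
abbrev Mx : Type := Mt 4
/-- permutations of the marks. -/
abbrev Pk : Type := Equiv.Perm (Fin 4)

/-- basis of an index. -/
def bs : V → ℕ
  | .inl i => if i.val < 2 then 0 else 1
  | .inr _ => 2

/-- **frames**. -/
structure Fr (y : V → V → ℂ) : Prop where
  unit : ∀ p q, y p q * star (y p q) = 1
  herm : ∀ i j : Fin 4, y (.inl j) (.inl i) = star (y (.inl i) (.inl j))
  row0 : ∀ p p', p ≠ p' → bs p = bs p' → ∑ j : Fin 6, y p (.inr j) * star (y p' (.inr j)) = 0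
  row1 : ∀ p (i : Fin 4), bs p ≠ bs (.inl i) →
    ∑ j : Fin 6, y p (.inr j) * star (y (.inl i) (.inr j)) = s6 * y p (.inl i)
  col0 : ∀ q q', q ≠ q' → bs q = bs q' → ∑ j : Fin 6, star (y (.inr j) q) * y (.inr j) q' = 0
  col1 : ∀ q (i : Fin 4), bs q ≠ bs (.inl i) →
    ∑ j : Fin 6, star (y (.inr j) q) * y (.inr j) (.inl i) = s6 * star (y (.inl i) q)
  n7r : ∀ e : Pm, ∑ j : Fin 6, y (.inr (e 0)) (.inr j) * y (.inr (e 1)) (.inr j) *
    y (.inr (e 2)) (.inr j) * (star (y (.inr (e 3)) (.inr j)) * star (y (.inr (e 4)) (.inr j)) *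
      star (y (.inr (e 5)) (.inr j))) = 0
  n7c : ∀ e : Pm, ∑ j : Fin 6, y (.inr j) (.inr (e 0)) * y (.inr j) (.inr (e 1)) *
    y (.inr j) (.inr (e 2)) * (star (y (.inr j) (.inr (e 3))) * star (y (.inr j) (.inr (e 4))) *
      star (y (.inr j) (.inr (e 5)))) = 0

variable {y : V → V → ℂ}

theorem Fr.uni (h : Fr y) : Uni y := ⟨h.unit⟩

/-- conjugate transposition: the roles of rows and columns are exchanged. -/
def dag (y : V → V → ℂ) : V → V → ℂ := fun p q => star (y q p)

theorem dag_dag (y : V → V → ℂ) : dag (dag y) = y := by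
  funext p q; unfold dag; rw [star_star]

theorem star_s6 : star s6 = s6 := by
  unfold s6; exact Complex.conj_ofReal _

theorem Fr.dag (h : Fr y) : Fr (dag y) where
  unit := fun p q => by
    unfold H693U.dag
    rw [star_star, mul_comm]; exact h.unit q p
  herm := fun i j => by
    unfold H693U.dag
    rw [h.herm i j, star_star]
  row0 := fun p p' hp hb => by
    unfold H693U.dag
    simp only [star_star]
    exact h.col0 p p' hp hb
  row1 := fun p i hb => by
    unfold H693U.dag
    simp only [star_star]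
    exact h.col1 p i hb
  col0 := fun p p' hp hb => by
    unfold H693U.dag
    simp only [star_star]
    exact h.row0 p p' hp hb
  col1 := fun p i hb => by
    unfold H693U.dag
    simp only [star_star]
    exact h.row1 p i hb
  n7r := fun e => by
    have h1 := congrArg star (h.n7c e)
    rw [star_sum, star_zero] at h1
    rw [← h1]
    refine Finset.sum_congr rfl fun j _ => ?_
    unfold H693U.dag
    simp only [star_mul', star_star]
  n7c := fun e => by
    have h1 := congrArg star (h.n7r e)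
    rw [star_sum, star_zero] at h1
    rw [← h1]
    refine Finset.sum_congr rfl fun j _ => ?_
    unfold H693U.dag
    simp only [star_mul', star_star]

/-- admissible permutations of the marks. -/
def okP (π : Pk) : Prop :=
  ∀ i j : Fin 4, bs (.inl (π i)) = bs (.inl (π j)) ↔ bs (.inl i) = bs (.inl j)

instance (π : Pk) : Decidable (okP π) := by unfold okP; infer_instance

/-- the dihedral group. -/
def D4 : Finset Pk := Finset.univ.filter okP

theorem mem_D4 {π : Pk} : π ∈ D4 ↔ okP π := by unfold D4; simp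

theorem card_D4 : D4.card = 8 := by decide +kernel

theorem okP_mul {π ρ : Pk} (h : okP π) (h' : okP ρ) : okP (π * ρ) := fun i j =>
  (h (ρ i) (ρ j)).trans (h' i j)

theorem okP_inv {π : Pk} (h : okP π) : okP π⁻¹ := fun i j => by
  have := h (π⁻¹ i) (π⁻¹ j)
  simp only [← Equiv.Perm.mul_apply, mul_inv_cancel, Equiv.Perm.one_apply] at this
  exact this.symm

/-- action on the indices. -/
def pv (π : Pk) : V → V := Sum.map π id

theorem pv_mul (π ρ : Pk) (p : V) : pv (π * ρ) p = pv π (pv ρ p) := by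
  cases p <;> rfl

theorem pv_inj (π : Pk) {p q : V} (h : pv π p = pv π q) : p = q := by
  have := congrArg (pv π⁻¹) h
  rw [← pv_mul, ← pv_mul, inv_mul_cancel] at this
  revert this
  cases p <;> cases q <;> exact id

theorem bs_pv {π : Pk} (h : okP π) (p q : V) : bs (pv π p) = bs (pv π q) ↔ bs p = bs q := by
  have h2 : ∀ i : Fin 4, bs (.inl i) ≠ 2 := by
    intro i; unfold bs; simp only; split_ifs <;> norm_num
  rcases p with i | a
  · rcases q with j | b
    · exact h i j
    · exact iff_of_false (h2 (π i)) (h2 i)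
  · rcases q with j | b
    · exact iff_of_false (fun h' => h2 (π j) h'.symm) (fun h' => h2 j h'.symm)
    · exact iff_of_true rfl rfl

/-- action on arrays. -/
def gact (π : Pk) (y : V → V → ℂ) : V → V → ℂ := fun p q => y (pv π p) (pv π q)

theorem Fr.actp (h : Fr y) {π : Pk} (hπ : okP π) : Fr (gact π y) where
  unit := fun p q => h.unit _ _
  herm := fun i j => h.herm (π i) (π j)
  row0 := fun p p' hp hb => h.row0 _ _ (fun h' => hp (pv_inj π h')) ((bs_pv hπ p p').2 hb)
  row1 := fun p i hb => h.row1 _ (π i) (fun h' => hb ((bs_pv hπ p (.inl i)).1 h'))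
  col0 := fun p p' hp hb => h.col0 _ _ (fun h' => hp (pv_inj π h')) ((bs_pv hπ p p').2 hb)
  col1 := fun p i hb => h.col1 _ (π i) (fun h' => hb ((bs_pv hπ p (.inl i)).1 h'))
  n7r := fun e => h.n7r e
  n7c := fun e => h.n7c e

/-- the class function. -/
noncomputable def Fv (y : V → V → ℂ) (b : Bool) (M : Mx) : ℝ :=
  pw6 b * ((16⁻¹ : ℝ) * ∑ π ∈ D4, ((iv (gact π y) M).re + (iv (gact π (dag y)) M).re))

/-! ### Symmetries -/

theorem mon_dag (M : Mx) (σ τ : Fin 6 → Fin 6) :
    mon (dag y) M σ τ = star (mon y (fun p q => M q p) τ σ) := by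
  unfold mon
  rw [star_prod, Finset.prod_comm]
  refine Finset.prod_congr rfl fun p _ => ?_
  rw [star_prod]
  refine Finset.prod_congr rfl fun q _ => ?_
  unfold dag
  rw [star_zpow₀]

theorem iv_dag (M : Mx) : iv (dag y) M = star (iv y (fun p q => M q p)) := by
  unfold iv
  rw [star_mul', star_sum]
  have e0 : star (518400⁻¹ : ℂ) = 518400⁻¹ := by simp
  rw [e0, Finset.sum_comm]
  congr 1
  refine Finset.sum_congr rfl fun τ _ => ?_
  rw [star_sum]
  exact Finset.sum_congr rfl fun σ _ => mon_dag M σ τ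

theorem gact_dag (π : Pk) (y : V → V → ℂ) : gact π (dag y) = dag (gact π y) := rfl

theorem re_star (z : ℂ) : (star z).re = z.re := Complex.conj_re z

theorem Fv_trans (h : Fr y) (b : Bool) (M : Mx) : Fv y b (fun p q => M q p) = Fv y b M := by
  unfold Fv
  congr 2
  refine Finset.sum_congr rfl fun π hπ => ?_
  have hf := h.actp (mem_D4.1 hπ)
  rw [gact_dag, iv_dag, iv_dag, re_star, re_star, add_comm]

theorem Fv_neg (h : Fr y) (b : Bool) (M : Mx) : Fv y b (fun p q => - M p q) = Fv y b M := by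
  unfold Fv
  congr 2
  refine Finset.sum_congr rfl fun π hπ => ?_
  have hf := h.actp (mem_D4.1 hπ)
  have hg := h.dag.actp (mem_D4.1 hπ)
  rw [← star_iv hf.uni, ← star_iv hg.uni, re_star, re_star]

theorem Fv_perm (b : Bool) (M : Mx) (σ τ : Pm) :
    Fv y b (fun p q => M (ev σ p) (ev τ q)) = Fv y b M := by
  unfold Fv
  simp only [iv_perm]

/-- reversal of the cells between marks. -/
def fold (M : Mx) : Mx
  | .inl i, .inl j => - M (.inl j) (.inl i)
  | .inl i, .inr b => M (.inl i) (.inr b)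
  | .inr a, .inl j => M (.inr a) (.inl j)
  | .inr a, .inr b => M (.inr a) (.inr b)

theorem mon_fold (h : Fr y) (M : Mx) (σ τ : Fin 6 → Fin 6) : mon y (fold M) σ τ = mon y M σ τ := by
  unfold mon
  simp only [Fintype.prod_sum_type, Finset.prod_mul_distrib]
  congr 1
  congr 1
  rw [Finset.prod_comm]
  refine Finset.prod_congr rfl fun i _ => Finset.prod_congr rfl fun j _ => ?_
  show y (.inl j) (.inl i) ^ (- M (.inl i) (.inl j)) = y (.inl i) (.inl j) ^ M (.inl i) (.inl j)
  rw [h.herm i j, ← star_zpow₀, h.uni.star_zpow, neg_neg]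

theorem Fv_fold (h : Fr y) (b : Bool) (M : Mx) : Fv y b (fold M) = Fv y b M := by
  unfold Fv iv
  congr 2
  refine Finset.sum_congr rfl fun π hπ => ?_
  simp only [mon_fold (h.actp (mem_D4.1 hπ)), mon_fold (h.dag.actp (mem_D4.1 hπ))]

/-- permutation of the marks as an equivalence of the indices. -/
def pe (π : Pk) : V ≃ V := Equiv.sumCongr π (Equiv.refl _)

theorem mon_mark (M : Mx) (π : Pk) (σ τ : Fin 6 → Fin 6) :
    mon y (fun p q => M (pv π p) (pv π q)) σ τ = mon (gact π⁻¹ y) M σ τ := by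
  unfold mon
  refine Fintype.prod_equiv (pe π) _ _ fun p => ?_
  refine Fintype.prod_equiv (pe π) _ _ fun q => ?_
  have e1 : ∀ (φ : Fin 6 → Fin 6) (p : V), pv π⁻¹ (ex φ (pe π p)) = ex φ p := by
    intro φ p
    cases p with
    | inl i =>
      show Sum.inl (π⁻¹ (π i)) = Sum.inl i
      simp
    | inr a => rfl
  show y (ex σ p) (ex τ q) ^ M (pv π p) (pv π q)
    = y (pv π⁻¹ (ex σ (pe π p))) (pv π⁻¹ (ex τ (pe π q))) ^ M (pe π p) (pe π q)
  rw [e1, e1]
  rfl

theorem gact_gact (π ρ : Pk) (y : V → V → ℂ) : gact π (gact ρ y) = gact (ρ * π) y := by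
  funext p q
  unfold gact
  rw [pv_mul, pv_mul]

theorem Fv_mark (b : Bool) (M : Mx) {π : Pk} (hπ : okP π) :
    Fv y b (fun p q => M (pv π p) (pv π q)) = Fv y b M := by
  unfold Fv
  congr 2
  have e : ∀ z : V → V → ℂ, iv z (fun p q => M (pv π p) (pv π q)) = iv (gact π⁻¹ z) M := by
    intro z; unfold iv; simp only [mon_mark]
  simp only [e, gact_gact]
  refine Finset.sum_bij (fun ρ _ => ρ * π⁻¹) ?_ ?_ ?_ ?_
  · intro ρ hρ; exact mem_D4.2 (okP_mul (mem_D4.1 hρ) (okP_inv hπ))
  · intro ρ _ ρ' _ hh; exact mul_right_cancel hh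
  · intro ρ hρ
    exact ⟨ρ * π, mem_D4.2 (okP_mul (mem_D4.1 hρ) hπ), by simp⟩
  · intro ρ _; rfl

theorem abs_Fv_le (h : Fr y) (b : Bool) (M : Mx) : |Fv y b M| ≤ 5 / 2 := by
  unfold Fv
  rw [abs_mul, abs_of_nonneg (pw6_nonneg b)]
  have h1 : |∑ π ∈ D4, ((iv (gact π y) M).re + (iv (gact π (dag y)) M).re)| ≤ 16 := by
    refine (Finset.abs_sum_le_sum_abs _ _).trans ?_
    have : ∀ π ∈ D4, |(iv (gact π y) M).re + (iv (gact π (dag y)) M).re| ≤ 2 := by
      intro π hπ
      have a1 := (Complex.abs_re_le_norm _).trans (norm_iv_le (h.actp (mem_D4.1 hπ)).uni M)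
      have a2 := (Complex.abs_re_le_norm _).trans (norm_iv_le (h.dag.actp (mem_D4.1 hπ)).uni M)
      refine (abs_add_le _ _).trans ?_
      linarith
    refine (Finset.sum_le_sum this).trans ?_
    rw [Finset.sum_const, card_D4]; norm_num
  have h2 : |(16⁻¹ : ℝ) * ∑ π ∈ D4, ((iv (gact π y) M).re + (iv (gact π (dag y)) M).re)| ≤ 1 := by
    rw [abs_mul, abs_of_nonneg (by norm_num : (0 : ℝ) ≤ 16⁻¹)]
    linarith
  calc _ ≤ (5 / 2 : ℝ) * 1 := mul_le_mul (pw6_le b) h2 (abs_nonneg _) (by norm_num)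
    _ = _ := by norm_num

theorem iv_zero (y : V → V → ℂ) : iv y (fun _ _ => 0) = 1 := by
  unfold iv mon
  simp only [zpow_zero, Finset.prod_const_one, Finset.sum_const, card_pm]
  norm_num

theorem Fv_one (y : V → V → ℂ) : Fv y false (fun _ _ => 0) = 1 := by
  unfold Fv
  simp only [iv_zero, Complex.one_re, Finset.sum_const, card_D4]
  unfold pw6
  norm_num

end Vale.Agent.P355.H693U
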