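import Vale.Agent.P355.H693U.Fr

/-! Row relations and squares for the class function of frames. -/

namespace Vale.Agent.P355.H693U

open Finset Vale.Agent.P355 Vale.Agent.P355.H129T
open Vale.Agent.P355.H138 (pw6 r6 s6 pw6_nonneg pw6_le PSD par6 pw6_mul)

set_option linter.unusedSectionVars false

variable {y : V → V → ℂ}

/-- single weight. -/
def w1 (p : V) : V → ℤ := fun r => if r = p then 1 else 0
/-- opposite weights. -/
def w2 (p p' : V) : V → ℤ := fun r => if r = p then 1 else if r = p' then -1 else 0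
/-- weights of N7. -/
def w7 : V → ℤ
  | .inl _ => 0
  | .inr a => if a.val < 3 then 1 else -1

theorem ex_injective (σ : Pm) {p q : V} (h : ex (m := 4) σ p = ex σ q) : p = q := by
  rcases p with i | a <;> rcases q with j | b
  · exact h
  · simp at h
  · simp at h
  · simp only [ex_inr, Sum.inr.injEq, EmbeddingLike.apply_eq_iff_eq] at h
    rw [h]

theorem bs_ex (σ : Fin 6 → Fin 6) (p : V) : bs (ex (m := 4) σ p) = bs p := by
  cases p <;> rfl

theorem head_zero (i : Fin 4) (σ : Fin 6 → Fin 6) : head y i σ (fun _ => 0) = 1 := by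
  unfold head; simp

theorem colw_two (h : Fr y) (p p' : V) (hp : p ≠ p') (σ : Fin 6 → Fin 6) :
    colw y σ (w2 p p') = ∑ j : Fin 6, y (ex σ p) (.inr j) * star (y (ex σ p') (.inr j)) := by
  unfold colw
  refine Finset.sum_congr rfl fun j _ => ?_
  rw [← h.uni.inv]
  have hs : ∀ r ∈ (Finset.univ : Finset V), r ∉ ({p, p'} : Finset V) →
      y (ex σ r) (.inr j) ^ w2 p p' r = 1 := by
    intro r _ hr
    simp only [Finset.mem_insert, Finset.mem_singleton, not_or] at hr
    unfold w2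
    rw [if_neg hr.1, if_neg hr.2, zpow_zero]
  rw [← Finset.prod_subset (Finset.subset_univ {p, p'}) hs, Finset.prod_pair hp]
  unfold w2
  rw [if_pos rfl, if_neg (Ne.symm hp), if_pos rfl, zpow_one, zpow_neg_one]

theorem row_fact0 (h : Fr y) (p p' : V) (hp : p ≠ p') (hb : bs p = bs p') (σ : Pm) :
    colw y σ (w2 p p') = 0 := by
  rw [colw_two h p p' hp]
  exact h.row0 _ _ (fun h' => hp (ex_injective σ h')) (by rw [bs_ex, bs_ex, hb])

theorem row_fact1 (h : Fr y) (p : V) (i : Fin 4) (hb : bs p ≠ bs (.inl i)) (σ : Pm) :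
    colw y σ (w2 p (.inl i)) = s6 * head y i σ (w1 p) := by
  have hp : p ≠ .inl i := fun h' => hb (by rw [h'])
  rw [colw_two h p (.inl i) hp]
  have e : head y i σ (w1 p) = y (ex σ p) (.inl i) := by
    unfold head
    rw [Finset.prod_eq_single p]
    · unfold w1; rw [if_pos rfl, zpow_one]
    · intro r _ hr; unfold w1; rw [if_neg hr, zpow_zero]
    · intro hh; exact absurd (Finset.mem_univ _) hh
  rw [e]
  exact h.row1 _ i (by rw [bs_ex]; exact hb)

theorem row_fact7 (h : Fr y) (σ : Pm) : colw y σ w7 = 0 := by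
  rw [← h.n7r σ]
  unfold colw
  refine Finset.sum_congr rfl fun j _ => ?_
  rw [Fintype.prod_sum_type, Fin.prod_univ_six]
  have e : ∀ i : Fin 6, w7 (.inr i) = if i.val < 3 then 1 else -1 := fun i => rfl
  have e0 : ∀ i : Fin 4, w7 (.inl i) = 0 := fun i => rfl
  simp only [e, e0, ex_inr, ex_inl, zpow_zero, Finset.prod_const_one, one_mul]
  norm_num
  simp only [h.uni.inv]
  simp only [Complex.star_def]
  ring

/-- factor of the contraction rows. -/
def kap (b : Bool) : ℝ := if b then 1 else 6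

theorem pw6_kap (b : Bool) : pw6 (!b) * r6 = kap b * pw6 b := by
  have h : r6 * r6 = 6 := by unfold r6; exact Real.mul_self_sqrt (by norm_num)
  cases b <;> simp [pw6, kap, h]

theorem re_s6 (z : ℂ) : (s6 * z).re = r6 * z.re := by
  unfold s6 r6; rw [Complex.re_ofReal_mul]

theorem sum_swap (b : Bool) (f g : Pk → Fin 6 → ℂ) :
    ∑ j : Fin 6, pw6 b * ((16⁻¹ : ℝ) * ∑ π ∈ D4, ((f π j).re + (g π j).re))
      = pw6 b * ((16⁻¹ : ℝ) * ∑ π ∈ D4, ((∑ j, f π j).re + (∑ j, g π j).re)) := by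
  rw [← Finset.mul_sum, ← Finset.mul_sum, Finset.sum_comm]
  congr 2
  refine Finset.sum_congr rfl fun π _ => ?_
  rw [Finset.sum_add_distrib, Complex.re_sum, Complex.re_sum]

theorem Fv_row0 (h : Fr y) (b : Bool) (M : Mx) (w : V → ℤ)
    (hw : ∀ z, Fr z → ∀ σ : Pm, colw z σ w = 0) :
    ∑ j : Fin 6, Fv y b (addc M w (.inr j)) = 0 := by
  have key : ∀ z, Fr z → ∑ j : Fin 6, iv z (addc M w (.inr j)) = 0 := by
    intro z hz
    rw [row_scheme hz.uni M w (fun _ => 0) 0 0 (fun σ => by rw [hw z hz, zero_mul]), zero_mul]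
  unfold Fv
  rw [sum_swap b (fun π j => iv (gact π y) (addc M w (.inr j)))
    (fun π j => iv (gact π (dag y)) (addc M w (.inr j)))]
  rw [Finset.sum_eq_zero, mul_zero, mul_zero]
  intro π hπ
  rw [key _ (h.actp (mem_D4.1 hπ)), key _ (h.dag.actp (mem_D4.1 hπ))]
  simp

theorem Fv_row1 (h : Fr y) (b : Bool) (M : Mx) (w v : V → ℤ) (i : Fin 4)
    (hw : ∀ z, Fr z → ∀ σ : Pm, colw z σ w = s6 * head z i σ v) :
    ∑ j : Fin 6, Fv y (!b) (addc M w (.inr j)) = kap b * Fv y b (addc M v (.inl i)) := by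
  have key : ∀ z, Fr z → ∑ j : Fin 6, iv z (addc M w (.inr j)) = s6 * iv z (addc M v (.inl i)) :=
    fun z hz => row_scheme hz.uni M w v i s6 (hw z hz)
  unfold Fv
  rw [sum_swap (!b) (fun π j => iv (gact π y) (addc M w (.inr j)))
    (fun π j => iv (gact π (dag y)) (addc M w (.inr j))), ← mul_assoc (kap b), ← pw6_kap]
  have e : ∑ π ∈ D4, ((∑ j, iv (gact π y) (addc M w (.inr j))).re
      + (∑ j, iv (gact π (dag y)) (addc M w (.inr j))).re)
      = r6 * ∑ π ∈ D4, ((iv (gact π y) (addc M v (.inl i))).re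
        + (iv (gact π (dag y)) (addc M v (.inl i))).re) := by
    rw [Finset.mul_sum]
    refine Finset.sum_congr rfl fun π hπ => ?_
    rw [key _ (h.actp (mem_D4.1 hπ)), key _ (h.dag.actp (mem_D4.1 hπ)), re_s6, re_s6, mul_add]
  rw [e]; ring

/-- **rows, right-hand side zero**: two vertices or two marks of one basis. -/
theorem law0 (h : Fr y) (b : Bool) (M : Mx) (p p' : V) (hp : p ≠ p') (hb : bs p = bs p') :
    ∑ j : Fin 6, Fv y b (addc M (w2 p p') (.inr j)) = 0 :=
  Fv_row0 h b M _ fun _ hz σ => row_fact0 hz p p' hp hb σ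

/-- **contraction rows**: index and mark of different bases. -/
theorem law1 (h : Fr y) (b : Bool) (M : Mx) (p : V) (i : Fin 4) (hb : bs p ≠ bs (.inl i)) :
    ∑ j : Fin 6, Fv y (!b) (addc M (w2 p (.inl i)) (.inr j))
      = kap b * Fv y b (addc M (w1 p) (.inl i)) :=
  Fv_row1 h b M _ _ i fun _ hz σ => row_fact1 hz p i hb σ

/-- **N7 rows.** -/
theorem law7 (h : Fr y) (b : Bool) (M : Mx) :
    ∑ j : Fin 6, Fv y b (addc M w7 (.inr j)) = 0 :=
  Fv_row0 h b M _ fun _ hz σ => row_fact7 hz σ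

/-! ### Squares -/

/-- real value. -/
noncomputable def Rv (z : V → V → ℂ) (b : Bool) (M : Mx) : ℝ := pw6 b * (iv z M).re

theorem Rv_sq {z : V → V → ℂ} (h : Uni z) : Sq (Rv z) := by
  intro N G hG b f
  have h1 := iv_sos h N G hG b f
  refine h1.trans_eq (Finset.sum_congr rfl fun i _ => Finset.sum_congr rfl fun j _ => ?_)
  have e := pw6_mul (b i) (b j)
  unfold Rv
  rw [← mul_assoc (par6 (b i) (b j) : ℝ), ← e]
  ring

theorem Sq.zero : Sq (fun (_ : Bool) (_ : Mx) => (0 : ℝ)) := by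
  intro N G _ b f
  simp

theorem Sq.sum {α : Type} (s : Finset α) (F : α → Bool → Mx → ℝ) (h : ∀ a ∈ s, Sq (F a)) :
    Sq (fun b M => ∑ a ∈ s, F a b M) := by
  classical
  induction s using Finset.induction_on with
  | empty => simpa using Sq.zero
  | insert a s ha ih =>
    have h1 := (h a (Finset.mem_insert_self a s)).add
      (ih fun x hx => h x (Finset.mem_insert_of_mem hx))
    have e : (fun (b : Bool) (M : Mx) => ∑ x ∈ insert a s, F x b M)
        = fun b M => F a b M + ∑ x ∈ s, F x b M := by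
      funext b M; rw [Finset.sum_insert ha]
    rw [e]; exact h1

/-- **Label-only squares of the class function.** -/
theorem Fv_sq (h : Fr y) : Sq (Fv y) := by
  have e : Fv y = fun b M => (16⁻¹ : ℝ) * ∑ π ∈ D4,
      (Rv (gact π y) b M + Rv (gact π (dag y)) b M) := by
    funext b M
    unfold Fv Rv
    simp only [← mul_add, ← Finset.mul_sum]
    ring
  rw [e]
  refine Sq.smul (Sq.sum D4 (fun π b M => Rv (gact π y) b M + Rv (gact π (dag y)) b M)
    fun π hπ => ?_) (by norm_num)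
  exact (Rv_sq (h.actp (mem_D4.1 hπ)).uni).add (Rv_sq (h.dag.actp (mem_D4.1 hπ)).uni)

end Vale.Agent.P355.H693U
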